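import Crest.Agent.X262.Gwb.Mst
import Crest.Agent.X262.Geo.Dv
import Crest.Agent.X262.Form88.Pur

/-!
# Row 262, road B (helper39): the input tuple of the master space

* `exists_iso` : a point over which a modification is an isomorphism;
* `exists_a`   : a tuple which is regular on `Y` and dominates `O(1) ⊗ O(1)` of the two ends.
-/

set_option autoImplicit false

noncomputable section

namespace Crest.Agent.X262.Pt39

open Crest.Agent.X277 Crest.Agent.X277.Lef Crest.Agent.X277.AN.G1 Crest.Agent.X277.BD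
open Crest.Agent.X277.BD.Br
open Crest.Agent.X262.Coh Crest.Agent.X262.Gwb
open Crest.Agent.X262.Chn (Ge mor)
open Crest.Agent.X262.Form88 (Iso)

variable {K : Type} [Field K] [Algebra ℂ K] {U Y : PModel ℂ K}

theorem dom_mor (h : Ge U Y) (x : Pts U) : (lp ((mor h).map x : Pts Y)).Dom (lp x) :=
  Form88.bir_dom (W := U) (Y := Y) (μ := mor h) rfl x

theorem mor_surj (h : Ge U Y) (y : Pts Y) : ∃ x : Pts U, (mor h).map x = y :=
  Cns.hom_surjective (Q := U) (P := Y) (μ := mor h) rfl y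

/-- the local ring of a point over which `U → Y` is an isomorphism -/
theorem le_of_iso {h : Ge U Y} {x : Pts U} (hx : Iso (mor h) x) :
    (lp x).O ≤ (lp ((mor h).map x : Pts Y)).O := fun g hg => by
  obtain ⟨f, hf, rfl⟩ := hx g hg
  exact hf

theorem at_of_iso {h : Ge U Y} {x : Pts U} (hx : Iso (mor h) x) {a : BD ℂ K} {g : K}
    (hg : At a x g) : At a ((mor h).map x : Pts Y) g := fun V hV =>
  hg V fun f hf => hV f (le_of_iso hx hf)

theorem at_tr {a : BD ℂ K} {y : Pts Y} {g : K} (hg : At a y g) : At (Geo.tr Y a) y g :=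
  Geo.at_of_od (Geo.tr_mem a) hg.ne fun V hV hx => by
    rw [Geo.od_tr hV]
    exact Geo.nv_of_at hg hV.dvs hx

variable {s : Sit K} {y : Pts s.Y}

theorem good_g (h : ¬ s.Bad y) : At (oP s.Y) y s.g := by_contra fun h1 => h (Or.inl h1)

theorem good_p (h : ¬ s.Bad y) {x : Pts s.Yp} (hx : (mor s.hp).map x = y) :
    Iso (mor s.hp) x ∧ At (oP s.Yp) x s.gp := by_contra fun h1 =>
  h (Or.inr (Or.inl ⟨x, hx, not_and_or.1 h1⟩))

theorem good_m (h : ¬ s.Bad y) {x : Pts s.Ym} (hx : (mor s.hm).map x = y) :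
    Iso (mor s.hm) x ∧ At (oP s.Ym) x s.gm := by_contra fun h1 =>
  h (Or.inr (Or.inr ⟨x, hx, not_and_or.1 h1⟩))

theorem at_gp (h : ¬ s.Bad y) : At (oP s.Yp) y s.gp := by
  obtain ⟨x, rfl⟩ := mor_surj s.hp y
  exact at_of_iso (good_p h rfl).1 (good_p h rfl).2

theorem at_gm (h : ¬ s.Bad y) : At (oP s.Ym) y s.gm := by
  obtain ⟨x, rfl⟩ := mor_surj s.hm y
  exact at_of_iso (good_m h rfl).1 (good_m h rfl).2

/-- **the input tuple** -/
theorem exists_a' (s : Sit K) : ∃ (n : ℕ) (a : Fin (n + 1) → K), (∀ j, a j ≠ 0) ∧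
    ∀ y : Pts s.Y, ∃ j, (∀ l, a l / a j ∈ (lp y).O) ∧
      (∀ f ∈ (oP s.Yp).Sec, ∀ f' ∈ (oP s.Ym).Sec, f * f' / a j ∈ (lp y).O) ∧
      (¬ s.Bad y → ev (s.gp * s.gm / a j) y ≠ 0) := by
  have h1 := add_mem (Geo.tr_mem (P := s.Y) (oP s.Yp)) (Geo.tr_mem (P := s.Y) (oP s.Ym))
  obtain ⟨N, hN⟩ := serre h1
  obtain ⟨n, a, h2, h3, h4⟩ := exists_gn (add_mem h1 (nsmul_mem oP_mem N)) (hN N le_rfl)
  have h5 := pow_ne_zero N s.g_mem.1
  refine ⟨n, fun j => a j / s.g ^ N, fun j => div_ne_zero (h2 j) h5, fun y => ?_⟩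
  obtain ⟨j, -, hj⟩ := h3 y
  have h6 := at_mxf (h2 j) hj
  rw [← h4] at h6
  refine ⟨j, fun l => ?_, fun f hf f' hf' => ?_, fun h => ?_⟩
  · rw [div_div_div_cancel_right₀ h5]
    exact hj l
  · rw [div_div_eq_mul_div]
    exact h6.div_mem (mul_mem_Sec (mul_mem_Sec (Geo.Sec_le_tr _ hf) (Geo.Sec_le_tr _ hf'))
      (pow_mem_Sec s.g_mem.2 N))
  · rw [div_div_eq_mul_div]
    exact (((at_tr (at_gp h)).add (at_tr (at_gm h))).add ((good_g h).nsmul N)).ev_div_ne h6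

theorem exists_a (s : Sit K) : ∃ (n : ℕ) (a : Fin (n + 1) → K), (∀ j, a j ≠ 0) ∧
    ∀ y : Pts s.Y, ∃ j, (∀ l, a l / a j ∈ (lp y).O) ∧
      (∀ l, s.gp * s.Ym.y l / a j ∈ (lp y).O) ∧ (∀ l, s.Yp.y l * s.gm / a j ∈ (lp y).O) ∧
      s.gp * s.gm / a j ∈ (lp y).O ∧ (¬ s.Bad y → ev (s.gp * s.gm / a j) y ≠ 0) := by
  obtain ⟨n, a, h1, h2⟩ := exists_a' s
  refine ⟨n, a, h1, fun y => (h2 y).imp fun j hj => ⟨hj.1, fun l => ?_, fun l => ?_, ?_, hj.2.2⟩⟩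
  exacts [hj.2.1 _ s.gp_mem.2 _ (y_mem_Sec l), hj.2.1 _ (y_mem_Sec l) _ s.gm_mem.2,
    hj.2.1 _ s.gp_mem.2 _ s.gm_mem.2]

theorem exists_iso {h : Ge U Y} {y : Pts Y} {g : K}
    (h1 : ∀ x : Pts U, (mor h).map x = y → Iso (mor h) x ∧ At (oP U) x g) :
    ∃ x : Pts U, (lp x).O = (lp y).O ∧ At (oP U) x g := by
  obtain ⟨x, rfl⟩ := mor_surj h y
  exact ⟨x, le_antisymm (le_of_iso (h1 x rfl).1) (dom_mor h x).le, (h1 x rfl).2⟩

/-- **the input tuple**, in the form of helper2 -/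
theorem exists_inp (s : Sit K) : ∃ (n : ℕ) (a : Fin (n + 1) → K), (∀ j, a j ≠ 0) ∧
    Cns.Gn s.Y a ∧ oP s.Yp + oP s.Ym ≤ mxf ℂ a ∧ ∀ y : Pts s.Y, ¬ s.Bad y →
      At (mxf ℂ a) y (s.gp * s.gm) ∧
      (∃ x : Pts s.Yp, (lp x).O = (lp y).O ∧ At (oP s.Yp) x s.gp) ∧
      ∃ x : Pts s.Ym, (lp x).O = (lp y).O ∧ At (oP s.Ym) x s.gm := by
  obtain ⟨n, a, h1, h2⟩ := exists_a' s
  refine ⟨n, a, h1, fun y => (h2 y).imp fun j hj => ⟨h1 j, hj.1⟩, fun V => ?_, fun y hy =>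
    ⟨?_, exists_iso fun _ => good_p hy, exists_iso fun _ => good_m hy⟩⟩
  · obtain ⟨y, hy⟩ := exists_ov' s.Y V
    obtain ⟨j, h3, h4, -⟩ := h2 y
    obtain ⟨i, hi, -⟩ := exists_chart (P := s.Yp) V
    obtain ⟨l, hl, -⟩ := exists_chart (P := s.Ym) V
    rw [val_add, ← hi, ← hl, ← map_mul]
    exact (at_mxf (h1 j) h3).div_mem_iff.1 (h4 _ (y_mem_Sec i) _ (y_mem_Sec l)) V hy
  · obtain ⟨j, h3, -, h4⟩ := h2 y
    exact (at_mxf (h1 j) h3).of_ev' (h4 hy)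

theorem N_pos (P : PModel ℂ K) (h : BD.dim ℂ K ≠ 0) : 0 < P.N := by
  refine Nat.pos_of_ne_zero fun h0 => h ?_
  have h1 : P.A 0 ≤ ⊥ := by
    refine Algebra.adjoin_le ?_
    rintro _ ⟨j, rfl⟩
    have h2 : j = 0 := Fin.ext (by have := j.2; simp; omega)
    change P.y j / P.y 0 ∈ (⊥ : Subalgebra ℂ K)
    rw [h2, div_self (P.y_ne 0)]
    exact one_mem _
  have h2 : Function.Surjective (algebraMap ℂ K) := fun f => by
    obtain ⟨a, ha, c, hc, -, rfl⟩ := P.frac f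
    obtain ⟨a, rfl⟩ := Algebra.mem_bot.1 (h1 ha)
    obtain ⟨c, rfl⟩ := Algebra.mem_bot.1 (h1 hc)
    exact ⟨a / c, map_div₀ _ _ _⟩
  have := KaehlerDifferential.subsingleton_of_surjective ℂ K h2
  exact Module.finrank_zero_of_subsingleton

end Crest.Agent.X262.Pt39
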