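import Crest.Agent.X262.Ms2.Sp
import Crest.Agent.X262.Res.Main

/-!
# Row 262, road B (helper39): the two-step model

* `two R μ`, `mch_two` : a family of two tuples;
* `Vx`                 : the vertices; `Vx.le_end`, `Vx.end_le`;
* `pureStmt`.
-/

set_option autoImplicit false

noncomputable section

namespace Crest.Agent.X262.Pt39

open Crest.Agent.X277 Crest.Agent.X277.Lef Crest.Agent.X277.AN.G1
open Crest.Agent.X277.Cns (IsRF lpR Gn)
open Crest.Agent.X277.Res.Out (IsFr)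
open Crest.Agent.R274.Prod1_134 (IsPF)
open Crest.Agent.X262.Ms2

variable {K F M E : Type} [Field K] [Algebra ℂ K] [Field F] [Algebra ℂ F] [Field M] [Algebra ℂ M]
  [Field E] [Algebra ℂ E]

section Two

variable {N n : ℕ} (R : Fin (N + 1) → E) (μ : Fin (n + 1) → E)

/-- a family of two tuples -/
def two : ∀ b : Bool, Fin (cond b N n + 1) → E
  | true => R
  | false => μ

/-- a chart of `two` -/
def tc (i : Fin (N + 1)) (k : Fin (n + 1)) : ∀ b : Bool, Fin (cond b N n + 1)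
  | true => i
  | false => k

theorem eq_tc (c : ∀ b : Bool, Fin (cond b N n + 1)) : c = tc (c true) (c false) :=
  funext fun b => by cases b <;> rfl

theorem mch_two (i : Fin (N + 1)) (k : Fin (n + 1)) : mch (two R μ) (tc i k) =
    Algebra.adjoin ℂ (Set.range (fun l => R l / R i) ∪ Set.range fun l => μ l / μ k) := by
  refine le_antisymm (mch_le fun b l => Algebra.subset_adjoin ?_) (Algebra.adjoin_le ?_)
  · cases b
    exacts [Or.inr ⟨l, rfl⟩, Or.inl ⟨l, rfl⟩]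
  · rintro _ (⟨l, rfl⟩ | ⟨l, rfl⟩)
    exacts [div_mem_mch (s := two R μ) (tc i k) true l, div_mem_mch (s := two R μ) (tc i k) false l]

end Two

theorem N_pos_of_rf {ρ : M →ₐ[ℂ] E} {u : E} (h : IsRF ρ u) (P : PModel ℂ E) : 0 < P.N := by
  refine Nat.pos_of_ne_zero fun h0 => ?_
  have h1 : P.A 0 ≤ ⊥ := by
    refine Algebra.adjoin_le ?_
    rintro _ ⟨j, rfl⟩
    have h2 : j = 0 := Fin.ext (by have := j.2; simp; omega)
    change P.y j / P.y 0 ∈ (⊥ : Subalgebra ℂ E)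
    rw [h2, div_self (P.y_ne 0)]
    exact one_mem _
  obtain ⟨a, ha, c, hc, -, h2⟩ := P.frac u
  obtain ⟨a, rfl⟩ := Algebra.mem_bot.1 (h1 ha)
  obtain ⟨c, rfl⟩ := Algebra.mem_bot.1 (h1 hc)
  refine Polynomial.X_sub_C_ne_zero (algebraMap ℂ M (a / c)) (h.eq_zero ?_)
  rw [map_sub, Cns.evp_X, Cns.evp_C, AlgHom.commutes, map_div₀, h2, sub_self]

/-- two points with a common extension -/
theorem eq_of_hom {P : PModel ℂ F} {π : F →ₐ[ℂ] E} {L : LP E} {x x' : Pts P}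
    (h : ∀ f ∈ (lp x).O, π f ∈ L.O) (h' : ∀ f ∈ (lp x').O, π f ∈ L.O) : x = x' :=
  eq_of_dom (L := L.comap (Plc.ofHom π)) (dom_le fun f hf => ⟨Algebra.mem_top, h f hf⟩)
    (dom_le fun f hf => ⟨Algebra.mem_top, h' f hf⟩)

variable {α : K →ₐ[ℂ] M} {β : F →ₐ[ℂ] M} {ρ : M →ₐ[ℂ] E} {X : PModel ℂ K} {S : PModel ℂ F}

variable (α β ρ) in
/-- a vertex over `x` -/
structure Vx (x : Pts X) (V : LP E) (u : Fin (S.N + 1) → E) : Prop where
  rf : ∀ k, IsRF ρ (u k)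
  mul : ∀ k l, u l = u k * ρ (β (S.y l / S.y k))
  loc : V.Of (Algebra.adjoin ℂ ((fun f => ρ (α f)) '' (lp x).O ∪ Set.range u))
  val : ∀ k, V.v (u k) = 0

namespace Vx

variable {x : Pts X} {V L : LP E} {u : Fin (S.N + 1) → E} (h : Vx α β ρ x V u) (pf : IsPF α β)
  {p : Pts S} {k : Fin (S.N + 1)}

include h

theorem κ_mem {f : K} (hf : f ∈ (lp x).O) : ρ (α f) ∈ V.O :=
  h.loc.le (Algebra.subset_adjoin (Or.inl ⟨f, hf, rfl⟩))

theorem u_mem (k : Fin (S.N + 1)) : u k ∈ V.O :=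
  h.loc.le (Algebra.subset_adjoin (Or.inr ⟨k, rfl⟩))

theorem le_end (hp : p ∈ pat S k) : V.O ≤ (lpR (h.rf k) (lp (Cns.mk pf x p)) 0).O := by
  obtain ⟨h1, h2⟩ := mem_prod pf (Cns.mk pf x p)
  rw [Cns.fst_mk] at h1
  rw [Cns.snd_mk] at h2
  have h3 : ∀ f ∈ (lp x).O, ρ (α f) ∈ (lpR (h.rf k) (lp (Cns.mk pf x p)) 0).O := fun f hf =>
    π_mem_lpR _ (h1 f hf)
  have h4 := fun l => π_mem_lpR (h.rf k) (c := 0) (h2 _ (y_mem hp l))
  refine le_of_gen h.loc ?_ ?_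
  · rintro _ (⟨f, hf, rfl⟩ | ⟨l, rfl⟩)
    · exact h3 f hf
    · rw [h.mul k l]
      exact mul_mem (Cns.τ_mem_lpR _) (h4 l)
  · rintro _ (⟨f, hf, rfl⟩ | ⟨l, rfl⟩)
    · exact (v_hom (π := ρ.comp α) h3 hf).trans
        (v_hom (π := ρ.comp α) (fun g hg => h.κ_mem hg) hf).symm
    · rw [h.val, h.mul k l, LP.v_mul _ (Cns.τ_mem_lpR _) (h4 l), Cns.lpR_v_τ, zero_mul]

theorem end_le (h1 : V.O ≤ L.O) (h2 : ∀ f ∈ (lp p).O, ρ (β f) ∈ L.O) (k : Fin (S.N + 1)) :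
    (lpR (h.rf k) (lp (Cns.mk pf x p)) 0).O ≤ L.O := by
  have h3 := lpR_le (h.rf k) (mk_le pf ρ (fun f hf => h1 (h.κ_mem hf)) h2) (h1 (h.u_mem k))
  rwa [(dom_le h1).eq _ (h.u_mem k), h.val] at h3

end Vx

/-- **the two-step model** -/
theorem pureStmt : PureStmt := by
  intro K F M E _ _ _ _ _ _ _ _ α β pf ρ X S J _ io _ _ s hs hfr vx u rf hu v1 v2 v3 H2
  have hv : ∀ x, Vx α β ρ x (vx x) (u x) := fun x => ⟨rf x, hu x, v2 x, v3 x⟩
  obtain ⟨B', g1, k1⟩ := exists_res (Res.plusStmt ℂ) hs hfr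
  have e : ∀ i k, mch (two B'.y fun l => ρ (β (S.y l))) (tc i k) =
      Algebra.adjoin ℂ (Set.range (fun l => B'.y l / B'.y i) ∪
        Set.range fun l => ρ (β (S.y l / S.y k))) := fun i k => by
    simp only [mch_two, map_div₀]
  have eA : ∀ i k, B'.A i ≤ mch (two B'.y fun l => ρ (β (S.y l))) (tc i k) := fun i k =>
    e i k ▸ Algebra.adjoin_mono Set.subset_union_left
  have eR : ∀ i k l, B'.y l / B'.y i ∈ mch (two B'.y fun l => ρ (β (S.y l))) (tc i k) :=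
    fun i k l => e i k ▸ Algebra.subset_adjoin (Or.inl ⟨l, rfl⟩)
  have eS : ∀ i k l, ρ (β (S.y l / S.y k)) ∈ mch (two B'.y fun l => ρ (β (S.y l))) (tc i k) :=
    fun i k l => e i k ▸ Algebra.subset_adjoin (Or.inr ⟨l, rfl⟩)
  have eL : ∀ {i k} {O : Subalgebra ℂ E}, (∀ l, B'.y l / B'.y i ∈ O) →
      (∀ l, ρ (β (S.y l / S.y k)) ∈ O) → mch (two B'.y fun l => ρ (β (S.y l))) (tc i k) ≤ O := by
    intro i k O h1 h2
    rw [e]
    refine Algebra.adjoin_le ?_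
    rintro _ (⟨l, rfl⟩ | ⟨l, rfl⟩)
    exacts [h1 l, h2 l]
  obtain ⟨B, g2, k2⟩ := exists_res (s := two B'.y fun l => ρ (β (S.y l))) (Res.plusStmt ℂ)
    (fun b l => by
      cases b
      exacts [(map_ne_zero ρ).2 ((map_ne_zero β).2 (S.y_ne l)), B'.y_ne l])
    fun c f => by
      obtain ⟨a, ha, b, hb, h0, h1⟩ := B'.frac' (c true) f
      rw [eq_tc c]
      exact ⟨a, eA _ _ ha, b, eA _ _ hb, h0, h1⟩
  have hx : ∀ x, ∃ w : Pts B', lp w = vx x := fun x => (v1 x).2.elim fun c hc => k1 _ c hc (v1 x).1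
  have key : ∀ (L : LP E) i k, L.Of (mch (two B'.y fun l => ρ (β (S.y l))) (tc i k)) → Reg L := by
    intro L i k hL
    obtain ⟨w, hw, h1⟩ := AN.G1.exists_dom (P := B') L fun l => hL.le (eR i k l)
    choose c _ hc using fun j => g1 j w
    rcases H2 (lp w) c (mch_le hc) with ⟨x, h2⟩ | ⟨k', h2⟩
    · obtain ⟨w', h3⟩ := hx x
      obtain rfl : w' = w := eq_of_le (h3 ▸ h2)
      obtain ⟨p, hp, h4⟩ := exists_pt (N := L) (i := k) (ρ.comp β) fun l => hL.le (eS i k l)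
      obtain ⟨-, h5⟩ := mem_prod pf (Cns.mk pf x p)
      rw [Cns.snd_mk] at h5
      rw [← Cns.eq_of_dom_of (dom_le ((hv x).end_le pf (h3 ▸ h1.le) h4 k)) hL
        (eL (fun l => (hv x).le_end pf hp (h3 ▸ y_mem hw l))
          fun l => π_mem_lpR _ (h5 _ (y_mem hp l)))]
      exact (reg_lp _).lpR _ 0
    · have h3 : (lp w).v (ρ (β (S.y k / S.y k'))) ≠ 0 := by
        rw [← h1.eq _ (h2 k)]
        refine LP.ne_of_inv_mem (h1.le (h2 k)) ((map_ne_zero ρ).2 ((map_ne_zero β).2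
          (div_ne_zero (S.y_ne k) (S.y_ne k')))) ?_
        rw [← map_inv₀, ← map_inv₀, inv_div]
        exact hL.le (eS i k k')
      rw [← Cns.eq_of_dom_of h1 hL (eL (y_mem hw) fun l => ?_)]
      · exact reg_lp _
      · have h4 := LP.div_mem (h2 l) h3
        rwa [← map_div₀, ← map_div₀, div_div_div_cancel_right₀ (S.y_ne k')] at h4
  have hB : ∀ w : Pts B, ∃ i k, (lp w).Of (mch (two B'.y fun l => ρ (β (S.y l))) (tc i k)) := by
    intro w
    choose c _ hc using fun j => g2 j w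
    have h1 := mch_le hc
    rw [eq_tc c] at h1
    obtain ⟨w', h2⟩ := k2 _ _ (fr_of h1) (key _ _ _ (fr_of h1))
    have h3 : w' = w := eq_of_le (by rw [h2]; exact (fr_dom h1).le)
    refine ⟨c true, c false, ?_⟩
    rw [← h3, h2]
    exact fr_of h1
  obtain ⟨x₀⟩ : Nonempty (Pts X) := inferInstance
  refine ⟨B, B'.N, B'.y, N_pos_of_rf (rf x₀ 0) B', B'.y_ne, fun j w => ?_,
    fun w => by simpa only [e] using hB w, fun L c k h1 h2 h3 => ?_, fun z k hk => ?_, x₀, ?_⟩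
  · obtain ⟨i, k, h1⟩ := hB w
    obtain ⟨w', -, h2⟩ := AN.G1.exists_dom (P := B') (lp w) fun l => h1.le (eR i k l)
    exact (g1 j w').imp fun _ h => ⟨h.1, fun l => h2.le (h.2 l)⟩
  · obtain ⟨w, rfl⟩ := k1 L c h1 h2
    obtain ⟨i, hi⟩ := exists_pat w
    exact k2 _ _ (Cns.of_mono (lp_of hi) (eA i k) (eL (y_mem hi) h3)) h2
  · obtain ⟨w, hw⟩ := hx ((Cns.fst X S pf).map z)
    obtain ⟨i, hi⟩ := exists_pat w
    have h1 := (hv ((Cns.fst X S pf).map z)).le_end pf hk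
    have h2 := fun L h h' => (hv ((Cns.fst X S pf).map z)).end_le (L := L)
      (p := (Cns.snd X S pf).map z) pf h h' k
    rw [Cns.mk_fst_snd] at h1 h2
    have h3 := fun f hf => π_mem_lpR (rf ((Cns.fst X S pf).map z) k) (c := 0)
      ((mem_prod pf z).2 f hf)
    have h4 := eL (fun l => h1 (hw ▸ y_mem hi l)) fun l => h3 _ (y_mem hk l)
    refine k2 _ _ (of_fr (of_self _) h4 (h2 _ ?_ ?_)) ((reg_lp _).lpR _ 0)
    · obtain ⟨w', -, h5⟩ := AN.G1.exists_dom (P := B') (fr h4) fun l => mem_fr h4 (eR i k l)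
      have h6 : w' = w := eq_of_dom (dom_le (h5.le.trans (fr_dom h4).le))
        (dom_le (by rw [hw]; exact h1))
      rw [← hw, ← h6]
      exact h5.le
    · obtain ⟨p, -, h5⟩ := exists_pt (N := fr h4) (i := k) (ρ.comp β) fun l => mem_fr h4 (eS i k l)
      obtain rfl : p = _ := eq_of_hom (π := ρ.comp β) (fun f hf => (fr_dom h4).le (h5 f hf)) h3
      exact h5
  · obtain ⟨w, hw⟩ := hx x₀
    obtain ⟨i, hi⟩ := exists_pat w
    exact ⟨i, hw ▸ y_mem hi⟩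

end Crest.Agent.X262.Pt39
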